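import Vale.Agent.Results.P241.A_Combined
import Vale.Agent.Results.P241.SubgroupBound

namespace Vale.Agent.Results.P241.A_All

open Vale.Agent.Lib.P241 Subgroup

universe u

/-- The conjunction of the statements of `A_Combined` (when do `e(G,H)` and `ℓ(G,H)` meet: the range
`ℓ ≤ 2`, groups of exponent `p`, the Heisenberg group) and of `SubgroupBound` (`e(K,H) ≤ ℓ(G,H)` for
intermediate `K`, the conditional squeeze, the family with an elementary abelian subgroup of index
`p`, the wreath product `C_p ≀ C_p`). -/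
theorem result (p : ℕ) [Fact p.Prime] :
    (
    (∀ (G : Type u) [Group G] [Finite G], IsPGroup p G → ∀ H : Subgroup G,
      CyclicChain H (chainLen H) ∧
      (∃ N : Subgroup G, IsElemQuot p H N ∧ N.index = p ^ elemRank p H) ∧
      elemRank p H ≤ chainLen H ∧
      (chainLen H ≤ 2 →
        (elemRank p H = chainLen H ↔ (H.Normal ∨ ∀ g : G, H ⊔ zpowers g ≠ ⊤))) ∧
      (∀ (K : Subgroup G) (_ : H ≤ K) (_ : (H.subgroupOf K).Normal) (_ : K.Normal),
        IsCyclic (↥K ⧸ H.subgroupOf K) → IsCyclic (G ⧸ K) → chainLen H ≤ 2) ∧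
      (H.Normal → chainLen H ≤ 2 →
        ∀ r : ℕ, elemRank p H ≤ r → r ≤ chainLen H → r = chainLen H)) ∧
    (∀ (G : Type u) [Group G] [Finite G], IsPGroup p G → ∀ H : Subgroup G,
      p ^ chainLen H ≤ H.index ∧
        ∀ q : ℕ, 0 < q → (∀ g : G, g ^ q = 1) → H.index ≤ q ^ chainLen H) ∧
    (∀ (G : Type u) [Group G] [Finite G], (∀ g : G, g ^ p = 1) → ∀ H : Subgroup G,
      p ^ chainLen H = H.index ∧
        (elemRank p H = chainLen H ↔ ∀ x y : G, x * y * x⁻¹ * y⁻¹ ∈ H)) ∧
    (p ≠ 2 → chainLen (⊥ : Subgroup (Heis p)) = 3 ∧ elemRank p (⊥ : Subgroup (Heis p)) = 2)) ∧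
    (
    (∀ (G : Type u) [Group G] [Finite G], IsPGroup p G → ∀ H K : Subgroup G, H ≤ K →
      chainLen (H.subgroupOf K) ≤ chainLen H ∧ elemRank p (H.subgroupOf K) ≤ chainLen H ∧
      (elemRank p (H.subgroupOf K) = chainLen H →
        ∀ r : Subgroup G → ℕ, (∀ L L' : Subgroup G, H ≤ L → L ≤ L' → r L ≤ r L') →
          (∀ L : Subgroup G, H ≤ L → elemRank p (H.subgroupOf L) ≤ r L) →
          r ⊤ ≤ chainLen H → r ⊤ = chainLen H)) ∧
    (∀ (G : Type u) [Group G] [Finite G], IsPGroup p G → ∀ (E : Subgroup G) (g : G),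
      (∀ x ∈ E, ∀ y ∈ E, x * y = y * x) → (∀ x ∈ E, x ^ p = 1) → E.index = p → g ^ p ≠ 1 →
      elemRank p ((⊥ : Subgroup G).subgroupOf E) = chainLen (⊥ : Subgroup G) ∧
      p ^ chainLen (⊥ : Subgroup G) = Nat.card ↥E ∧
      (∀ x y : G, x * y * x⁻¹ * y⁻¹ ∉ zpowers (g ^ p) →
        elemRank p (⊥ : Subgroup G) < chainLen (⊥ : Subgroup G))) ∧
    (p ≠ 2 →
      chainLen (⊥ : Subgroup
        (RegularWreathProduct (Multiplicative (ZMod p)) (Multiplicative (ZMod p)))) = p ∧
      elemRank p ((⊥ : Subgroup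
        (RegularWreathProduct (Multiplicative (ZMod p)) (Multiplicative (ZMod p)))).subgroupOf
          (RegularWreathProduct.rightHom : RegularWreathProduct (Multiplicative (ZMod p))
            (Multiplicative (ZMod p)) →* Multiplicative (ZMod p)).ker) = p ∧
      elemRank p (⊥ : Subgroup
        (RegularWreathProduct (Multiplicative (ZMod p)) (Multiplicative (ZMod p)))) < p)) :=
  ⟨A_Combined.result p, SubgroupBound.result p⟩

end Vale.Agent.Results.P241.A_All
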