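import Vale.Agent.Lib.P241.Heis

namespace Vale.Agent.Results.P241.ExponentP

open Vale.Agent.Lib.P241 Subgroup

universe u

/-- (1) In a finite `p`-group, `p ^ ℓ(G,H) ≤ |G : H| ≤ q ^ ℓ(G,H)` for every `q > 0` killing `G`.
(2) In a finite group of exponent `p`, `ℓ(G,H) = log_p |G : H|`, and `e(G,H) = ℓ(G,H)` exactly
when `H` contains all commutators of `G`.
(3) For odd `p`, the Heisenberg group modulo `p` and its trivial subgroup have `ℓ = 3`, `e = 2`. -/
theorem result (p : ℕ) [Fact p.Prime] :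
    (∀ (G : Type u) [Group G] [Finite G], IsPGroup p G → ∀ H : Subgroup G,
      p ^ chainLen H ≤ H.index ∧
        ∀ q : ℕ, 0 < q → (∀ g : G, g ^ q = 1) → H.index ≤ q ^ chainLen H) ∧
    (∀ (G : Type u) [Group G] [Finite G], (∀ g : G, g ^ p = 1) → ∀ H : Subgroup G,
      p ^ chainLen H = H.index ∧
        (elemRank p H = chainLen H ↔ ∀ x y : G, x * y * x⁻¹ * y⁻¹ ∈ H)) ∧
    (p ≠ 2 → chainLen (⊥ : Subgroup (Heis p)) = 3 ∧ elemRank p (⊥ : Subgroup (Heis p)) = 2) := by
  refine ⟨?_, ?_, fun hodd => heis_values hodd⟩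
  · intro G _ _ hG H
    exact ⟨pow_chainLen_le_index hG H,
      fun q hq hexp => index_le_exp_pow hq hexp (chainLen_mem hG H)⟩
  · intro G _ _ hexp H
    exact ⟨pow_chainLen_eq_index hexp H, elemRank_eq_chainLen_iff_exp hexp H⟩

end Vale.Agent.Results.P241.ExponentP
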