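import Vale.Agent.Results.P241.BoundsMeetLengthTwo
import Vale.Agent.Results.P241.ExponentP

namespace Vale.Agent.Results.P241.A_Combined

open Vale.Agent.Lib.P241 Subgroup

universe u

/-- (A) For a finite `p`-group `G` and a subgroup `H`: `ℓ(G,H)` (`chainLen H`) and `e(G,H)`
(`elemRank p H`) are attained, `e ≤ ℓ`, for `ℓ ≤ 2` they agree exactly when `H` is normal or `G` is
not generated by `H` and one more element; a chain `H ⊴ K ⊴ G` with cyclic quotients gives `ℓ ≤ 2`.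
(B) `p ^ ℓ(G,H) ≤ |G : H| ≤ q ^ ℓ(G,H)` for every `q > 0` killing `G`.
(C) In a finite group of exponent `p`, `ℓ(G,H) = log_p |G : H|`, and `e = ℓ` exactly when `H`
contains all commutators.  (D) For odd `p` the Heisenberg group modulo `p` and its trivial subgroup
have `ℓ = 3`, `e = 2`. -/
theorem result (p : ℕ) [Fact p.Prime] :
    (∀ (G : Type u) [Group G] [Finite G], IsPGroup p G → ∀ H : Subgroup G,
      CyclicChain H (chainLen H) ∧
      (∃ N : Subgroup G, IsElemQuot p H N ∧ N.index = p ^ elemRank p H) ∧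
      elemRank p H ≤ chainLen H ∧
      (chainLen H ≤ 2 →
        (elemRank p H = chainLen H ↔ (H.Normal ∨ ∀ g : G, H ⊔ zpowers g ≠ ⊤))) ∧
      (∀ (K : Subgroup G) (_ : H ≤ K) (_ : (H.subgroupOf K).Normal) (_ : K.Normal),
        IsCyclic (↥K ⧸ H.subgroupOf K) → IsCyclic (G ⧸ K) → chainLen H ≤ 2) ∧
      (H.Normal → chainLen H ≤ 2 →
        ∀ r : ℕ, elemRank p H ≤ r → r ≤ chainLen H → r = chainLen H)) ∧
    (∀ (G : Type u) [Group G] [Finite G], IsPGroup p G → ∀ H : Subgroup G,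
      p ^ chainLen H ≤ H.index ∧
        ∀ q : ℕ, 0 < q → (∀ g : G, g ^ q = 1) → H.index ≤ q ^ chainLen H) ∧
    (∀ (G : Type u) [Group G] [Finite G], (∀ g : G, g ^ p = 1) → ∀ H : Subgroup G,
      p ^ chainLen H = H.index ∧
        (elemRank p H = chainLen H ↔ ∀ x y : G, x * y * x⁻¹ * y⁻¹ ∈ H)) ∧
    (p ≠ 2 → chainLen (⊥ : Subgroup (Heis p)) = 3 ∧ elemRank p (⊥ : Subgroup (Heis p)) = 2) :=
  ⟨fun G _ _ hG H => BoundsMeetLengthTwo.result p G hG H, ExponentP.result p⟩

end Vale.Agent.Results.P241.A_Combined
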