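import Vale.Agent.Lib.P241.Basic

namespace Vale.Agent.Results.P241.BoundsMeetLengthTwo

open Vale.Agent.Lib.P241 Subgroup

/-- For a finite `p`-group `G` and a subgroup `H`: both `ℓ(G,H)` (`chainLen H`) and `e(G,H)`
(`elemRank p H`) are attained, `e ≤ ℓ`, and in the range `ℓ(G,H) ≤ 2` the two numbers agree
exactly when `H` is normal in `G` or `G` is not generated by `H` and one more element.
A chain `H ⊴ K ⊴ G` with cyclic quotients gives `ℓ(G,H) ≤ 2`; so for normal `H` with metacyclic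
quotient every integer between `e` and `ℓ` equals `ℓ`. -/
theorem result (p : ℕ) [Fact p.Prime] (G : Type*) [Group G] [Finite G] (hG : IsPGroup p G)
    (H : Subgroup G) :
    CyclicChain H (chainLen H) ∧
    (∃ N : Subgroup G, IsElemQuot p H N ∧ N.index = p ^ elemRank p H) ∧
    elemRank p H ≤ chainLen H ∧
    (chainLen H ≤ 2 →
      (elemRank p H = chainLen H ↔ (H.Normal ∨ ∀ g : G, H ⊔ zpowers g ≠ ⊤))) ∧
    (∀ (K : Subgroup G) (_ : H ≤ K) (_ : (H.subgroupOf K).Normal) (_ : K.Normal),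
      IsCyclic (↥K ⧸ H.subgroupOf K) → IsCyclic (G ⧸ K) → chainLen H ≤ 2) ∧
    (H.Normal → chainLen H ≤ 2 →
      ∀ r : ℕ, elemRank p H ≤ r → r ≤ chainLen H → r = chainLen H) := by
  refine ⟨chainLen_mem hG H, elemRank_mem hG H, elemRank_le_chainLen hG H,
    fun h2 => elemRank_eq_chainLen_iff hG h2,
    fun K hHK hn hK hc hc' => chainLen_le_two hHK hn hK hc hc', ?_⟩
  intro hH h2 r h1 h3
  have := elemRank_eq_chainLen_of_normal hG hH h2
  omega

end Vale.Agent.Results.P241.BoundsMeetLengthTwo
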