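import Vale.Agent.Lib.P241.Sub.Final

namespace Vale.Agent.Results.P241.C_SubgroupBound

open Vale.Agent.Lib.P241 Subgroup

universe u

/-- `ℓ(K,H)` and `e(K,H)` for `H ≤ K ≤ G` are `chainLen (H.subgroupOf K)` and
`elemRank p (H.subgroupOf K)`, computed in the group `↥K`.
(A) `ℓ(K,H) ≤ ℓ(G,H)` and `e(K,H) ≤ ℓ(G,H)`; if `e(K,H) = ℓ(G,H)` for one intermediate `K`, then
every function `r` of the intermediate groups that is monotone, is bounded below by `e(L,H)` and
has `r G ≤ ℓ(G,H)` satisfies `r G = ℓ(G,H)`.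
(B) If `E ≤ G` is elementary abelian of index `p` and `G` does not have exponent `p`, then
`e(E,1) = ℓ(G,1) = log_p |E|`, and `e(G,1) < ℓ(G,1)` if some commutator is outside `⟨g ^ p⟩`.
(C) For odd `p` the regular wreath product `C_p ≀ C_p` with its base group is such a case:
`ℓ(G,1) = p = e(base,1)` and `e(G,1) < p`. -/
theorem result (p : ℕ) [Fact p.Prime] :
    (∀ (G : Type u) [Group G] [Finite G], IsPGroup p G → ∀ H K : Subgroup G, H ≤ K →
      chainLen (H.subgroupOf K) ≤ chainLen H ∧ elemRank p (H.subgroupOf K) ≤ chainLen H ∧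
      (elemRank p (H.subgroupOf K) = chainLen H →
        ∀ r : Subgroup G → ℕ, (∀ L L' : Subgroup G, H ≤ L → L ≤ L' → r L ≤ r L') →
          (∀ L : Subgroup G, H ≤ L → elemRank p (H.subgroupOf L) ≤ r L) →
          r ⊤ ≤ chainLen H → r ⊤ = chainLen H)) ∧
    (∀ (G : Type u) [Group G] [Finite G], IsPGroup p G → ∀ (E : Subgroup G) (g : G),
      (∀ x ∈ E, ∀ y ∈ E, x * y = y * x) → (∀ x ∈ E, x ^ p = 1) → E.index = p → g ^ p ≠ 1 →
      elemRank p ((⊥ : Subgroup G).subgroupOf E) = chainLen (⊥ : Subgroup G) ∧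
      p ^ chainLen (⊥ : Subgroup G) = Nat.card ↥E ∧
      (∀ x y : G, x * y * x⁻¹ * y⁻¹ ∉ zpowers (g ^ p) →
        elemRank p (⊥ : Subgroup G) < chainLen (⊥ : Subgroup G))) ∧
    (p ≠ 2 →
      chainLen (⊥ : Subgroup
        (RegularWreathProduct (Multiplicative (ZMod p)) (Multiplicative (ZMod p)))) = p ∧
      elemRank p ((⊥ : Subgroup
        (RegularWreathProduct (Multiplicative (ZMod p)) (Multiplicative (ZMod p)))).subgroupOf
          (RegularWreathProduct.rightHom : RegularWreathProduct (Multiplicative (ZMod p))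
            (Multiplicative (ZMod p)) →* Multiplicative (ZMod p)).ker) = p ∧
      elemRank p (⊥ : Subgroup
        (RegularWreathProduct (Multiplicative (ZMod p)) (Multiplicative (ZMod p)))) < p) := by
  refine ⟨?_, ?_, ?_⟩
  · intro G _ _ hG H K hHK
    exact ⟨chainLen_subgroupOf_le hG H K, elemRank_subgroupOf_le hG H K,
      fun he r hmono hlow hup => squeeze hHK he r hmono hlow hup⟩
  · intro G _ _ hG E g hcomm hE hEi hg
    exact ⟨family hG hcomm hE hEi hg, pow_chainLen_bot_eq hG hE hEi hg,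
      fun x y hxy => elemRank_bot_lt hG hE hEi hg hxy⟩
  · intro hodd
    obtain ⟨h1, h2⟩ := wreath_values p hodd
    exact ⟨h1, (wreath_base p).trans h1, h2⟩

end Vale.Agent.Results.P241.C_SubgroupBound
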